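import Mathlib
import Vale.Agent.Lib.P227.Defs
import Vale.Agent.Lib.P227.helper52.PLw
import Vale.Agent.Lib.P227.helper98.Fibre
import Vale.Agent.Lib.P227.helper61.Profile

/-!
# P227: iterated profile bodies

Pairs of origin-symmetric compact convex sets in `R^(m+k)` that are invariant under the
reflections of the first `k` coordinates and whose fibres over the first `k` coordinates are
nonnegative dilates of one compact set `M` of `R^m` containing the origin satisfy the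
logarithmic Brunn-Minkowski inequality. Induction on `k` with the one-step fibre theorem
`logBM_fibre`; the base case is the inequality for two dilates of `M`.
-/

namespace Vale.Agent.Lib.P227

open MeasureTheory Set
open scoped ENNReal Pointwise

/-- One step: from fibres over the first `k` coordinates in `R^n` to fibres over the first
`k + 1` coordinates in `R^(n+1)`. The tail maps `τ`, `τ'` are abstract; they only have to be
compatible with `ecomb`. -/
theorem h15_step {m n : ℕ} {lam : ℝ} (h0 : 0 ≤ lam) (h1 : lam ≤ 1)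
    (M : Set (EuclideanSpace ℝ (Fin m)))
    (τ : EuclideanSpace ℝ (Fin n) → EuclideanSpace ℝ (Fin m))
    (τ' : EuclideanSpace ℝ (Fin (n + 1)) → EuclideanSpace ℝ (Fin m))
    (hτ : ∀ (t : ℝ) (y : EuclideanSpace ℝ (Fin n)), τ' (ecomb t y) = τ y)
    (k : ℕ)
    (ih : ∀ A B : Set (EuclideanSpace ℝ (Fin n)),
      Convex ℝ A → IsCompact A → (∀ x ∈ A, -x ∈ A) →
      (∀ i : Fin n, (i : ℕ) < k →
        ∀ x ∈ A, x - (2 * x i) • EuclideanSpace.single i (1 : ℝ) ∈ A) →
      (∀ x ∈ A, ∃ a : ℝ, 0 ≤ a ∧ ∀ y : EuclideanSpace ℝ (Fin n),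
        (∀ i : Fin n, (i : ℕ) < k → y i = x i) → (y ∈ A ↔ τ y ∈ a • M)) →
      Convex ℝ B → IsCompact B → (∀ x ∈ B, -x ∈ B) →
      (∀ i : Fin n, (i : ℕ) < k →
        ∀ x ∈ B, x - (2 * x i) • EuclideanSpace.single i (1 : ℝ) ∈ B) →
      (∀ x ∈ B, ∃ b : ℝ, 0 ≤ b ∧ ∀ y : EuclideanSpace ℝ (Fin n),
        (∀ i : Fin n, (i : ℕ) < k → y i = x i) → (y ∈ B ↔ τ y ∈ b • M)) →
      volume A ^ (1 - lam) * volume B ^ lam ≤ volume (logSum lam A B))
    (K L : Set (EuclideanSpace ℝ (Fin (n + 1))))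
    (hKc : Convex ℝ K) (hK : IsCompact K) (hKs : ∀ x ∈ K, -x ∈ K)
    (hKr : ∀ i : Fin (n + 1), (i : ℕ) < k + 1 →
      ∀ x ∈ K, x - (2 * x i) • EuclideanSpace.single i (1 : ℝ) ∈ K)
    (hKf : ∀ x ∈ K, ∃ a : ℝ, 0 ≤ a ∧ ∀ y : EuclideanSpace ℝ (Fin (n + 1)),
      (∀ i : Fin (n + 1), (i : ℕ) < k + 1 → y i = x i) → (y ∈ K ↔ τ' y ∈ a • M))
    (hLc : Convex ℝ L) (hL : IsCompact L) (hLs : ∀ x ∈ L, -x ∈ L)
    (hLr : ∀ i : Fin (n + 1), (i : ℕ) < k + 1 →
      ∀ x ∈ L, x - (2 * x i) • EuclideanSpace.single i (1 : ℝ) ∈ L)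
    (hLf : ∀ x ∈ L, ∃ b : ℝ, 0 ≤ b ∧ ∀ y : EuclideanSpace ℝ (Fin (n + 1)),
      (∀ i : Fin (n + 1), (i : ℕ) < k + 1 → y i = x i) → (y ∈ L ↔ τ' y ∈ b • M)) :
    volume K ^ (1 - lam) * volume L ^ lam ≤ volume (logSum lam K L) := by
  rcases h0.eq_or_lt with h0' | h0'
  · subst h0'
    rw [sub_zero, ENNReal.rpow_one, ENNReal.rpow_zero, mul_one]
    exact measure_mono (subset_logSum_zero hK L)
  rcases h1.eq_or_lt with h1' | h1'
  · subst h1'
    rw [sub_self, ENNReal.rpow_one, ENNReal.rpow_zero, one_mul]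
    exact measure_mono (subset_logSum_one K hL)
  have refl0 : ∀ S : Set (EuclideanSpace ℝ (Fin (n + 1))),
      (∀ i : Fin (n + 1), (i : ℕ) < k + 1 →
        ∀ x ∈ S, x - (2 * x i) • EuclideanSpace.single i (1 : ℝ) ∈ S) →
      ∀ t w, ecomb t w ∈ S → ecomb (-t) w ∈ S := by
    intro S hS t w h
    have h2 := hS 0 (by simp) _ h
    rw [reflect_ecomb] at h2
    exact h2
  have reflsec : ∀ S : Set (EuclideanSpace ℝ (Fin (n + 1))),
      (∀ i : Fin (n + 1), (i : ℕ) < k + 1 →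
        ∀ x ∈ S, x - (2 * x i) • EuclideanSpace.single i (1 : ℝ) ∈ S) →
      ∀ t : ℝ, ∀ j : Fin n, (j : ℕ) < k →
        ∀ w ∈ sec t S, w - (2 * w j) • EuclideanSpace.single j (1 : ℝ) ∈ sec t S := by
    intro S hS t j hj w hw
    have h2 := hS j.succ (by simp only [Fin.val_succ]; omega) _ hw
    rw [ecomb_reflect_succ] at h2
    exact h2
  have fibsec : ∀ S : Set (EuclideanSpace ℝ (Fin (n + 1))),
      (∀ x ∈ S, ∃ a : ℝ, 0 ≤ a ∧ ∀ y : EuclideanSpace ℝ (Fin (n + 1)),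
        (∀ i : Fin (n + 1), (i : ℕ) < k + 1 → y i = x i) → (y ∈ S ↔ τ' y ∈ a • M)) →
      ∀ t : ℝ, ∀ w ∈ sec t S, ∃ a : ℝ, 0 ≤ a ∧ ∀ y : EuclideanSpace ℝ (Fin n),
        (∀ i : Fin n, (i : ℕ) < k → y i = w i) → (y ∈ sec t S ↔ τ y ∈ a • M) := by
    intro S hS t w hw
    obtain ⟨a, ha, h⟩ := hS (ecomb t w) hw
    refine ⟨a, ha, fun y hy => ?_⟩
    have h2 := h (ecomb t y) (by
      intro i
      refine Fin.cases (fun _ => ?_) (fun j hj => ?_) i
      · rw [ecomb_zero, ecomb_zero]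
      · rw [ecomb_succ, ecomb_succ]
        exact hy j (by simp only [Fin.val_succ] at hj; omega))
    rw [hτ] at h2
    exact h2
  have hKr' := refl0 K hKr
  have hLr' := refl0 L hLr
  refine logBM_fibre h0' h1'
    (fun F G H hF hG hH hFGH => pl_mul lam h0' h1' F G H hF hG hH hFGH)
    ?_ hKc hK hKs hKr' hLc hL hLs hLr'
  intro t s _ _ _ _
  exact ih _ _ (convex_sec hKc t) (isCompact_sec hK t) (sec_symm hKs hKr' t)
    (reflsec K hKr t) (fibsec K hKf t)
    (convex_sec hLc s) (isCompact_sec hL s) (sec_symm hLs hLr' s)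
    (reflsec L hLr s) (fibsec L hLf s)

/-- A set of `R^m` all of whose points see the same nonnegative dilate of `M` is empty or a
nonnegative dilate of `M`. -/
theorem h15_base_shape {m : ℕ} {M : Set (EuclideanSpace ℝ (Fin m))}
    {K : Set (EuclideanSpace ℝ (Fin (m + 0)))}
    (hKf : ∀ x ∈ K, ∃ a : ℝ, 0 ≤ a ∧ ∀ y : EuclideanSpace ℝ (Fin (m + 0)),
      (∀ i : Fin (m + 0), (i : ℕ) < 0 → y i = x i) →
      (y ∈ K ↔ (WithLp.toLp 2 (fun j : Fin m =>
        y (Fin.cast (Nat.add_comm 0 m) (Fin.natAdd 0 j))) : EuclideanSpace ℝ (Fin m)) ∈ a • M)) :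
    K = ∅ ∨ ∃ a : ℝ, 0 ≤ a ∧ K = a • M := by
  rcases K.eq_empty_or_nonempty with hK | ⟨x, hx⟩
  · exact Or.inl hK
  right
  obtain ⟨a, ha, h⟩ := hKf x hx
  refine ⟨a, ha, ?_⟩
  ext y
  have h2 := h y (fun i hi => absurd hi (Nat.not_lt_zero _))
  have e : (WithLp.toLp 2 (fun j : Fin m =>
      y (Fin.cast (Nat.add_comm 0 m) (Fin.natAdd 0 j))) : EuclideanSpace ℝ (Fin m)) = y := by
    ext j
    show y (Fin.cast (Nat.add_comm 0 m) (Fin.natAdd 0 j)) = y j
    have ej : (Fin.cast (Nat.add_comm 0 m) (Fin.natAdd 0 j) : Fin (m + 0)) = j := by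
      ext
      simp
    rw [ej]
  rw [e] at h2
  exact h2

/-- Iterated profile bodies: origin-symmetric compact convex sets `K`, `L` in `R^(m+k)`,
invariant under the reflections of the first `k` coordinates, whose fibres over the first `k`
coordinates are nonnegative dilates of `M`. -/
theorem h15_logBM_iter_profile {m : ℕ} {lam : ℝ} (h0 : 0 ≤ lam) (h1 : lam ≤ 1)
    {M : Set (EuclideanSpace ℝ (Fin m))}
    (hM : IsCompact M) (hM0 : (0 : EuclideanSpace ℝ (Fin m)) ∈ M) :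
    ∀ (k : ℕ) (K L : Set (EuclideanSpace ℝ (Fin (m + k)))),
      Convex ℝ K → IsCompact K → (∀ x ∈ K, -x ∈ K) →
      (∀ i : Fin (m + k), (i : ℕ) < k →
        ∀ x ∈ K, x - (2 * x i) • EuclideanSpace.single i (1 : ℝ) ∈ K) →
      (∀ x ∈ K, ∃ a : ℝ, 0 ≤ a ∧ ∀ y : EuclideanSpace ℝ (Fin (m + k)),
        (∀ i : Fin (m + k), (i : ℕ) < k → y i = x i) →
        (y ∈ K ↔ (WithLp.toLp 2 (fun j : Fin m =>
          y (Fin.cast (Nat.add_comm k m) (Fin.natAdd k j))) : EuclideanSpace ℝ (Fin m))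
            ∈ a • M)) →
      Convex ℝ L → IsCompact L → (∀ x ∈ L, -x ∈ L) →
      (∀ i : Fin (m + k), (i : ℕ) < k →
        ∀ x ∈ L, x - (2 * x i) • EuclideanSpace.single i (1 : ℝ) ∈ L) →
      (∀ x ∈ L, ∃ b : ℝ, 0 ≤ b ∧ ∀ y : EuclideanSpace ℝ (Fin (m + k)),
        (∀ i : Fin (m + k), (i : ℕ) < k → y i = x i) →
        (y ∈ L ↔ (WithLp.toLp 2 (fun j : Fin m =>
          y (Fin.cast (Nat.add_comm k m) (Fin.natAdd k j))) : EuclideanSpace ℝ (Fin m))
            ∈ b • M)) →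
      volume K ^ (1 - lam) * volume L ^ lam ≤ volume (logSum lam K L) := by
  intro k
  induction k with
  | zero =>
    intro K L _ hK _ _ hKf _ hL _ _ hLf
    rcases h0.eq_or_lt with h0' | h0'
    · subst h0'
      rw [sub_zero, ENNReal.rpow_one, ENNReal.rpow_zero, mul_one]
      exact measure_mono (subset_logSum_zero hK L)
    rcases h1.eq_or_lt with h1' | h1'
    · subst h1'
      rw [sub_self, ENNReal.rpow_one, ENNReal.rpow_zero, one_mul]
      exact measure_mono (subset_logSum_one K hL)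
    rcases h15_base_shape hKf with hKe | ⟨a, ha, hKa⟩
    · rw [hKe, measure_empty, ENNReal.zero_rpow_of_pos (by linarith), zero_mul]
      exact zero_le
    rcases h15_base_shape hLf with hLe | ⟨b, hb, hLb⟩
    · rw [hLe, measure_empty, ENNReal.zero_rpow_of_pos h0', mul_zero]
      exact zero_le
    rw [hKa, hLb]
    exact h61_dilate_ineq h0' h1' (fun u => supportFn_nonneg hM hM0 u)
      (fun u => supportFn_nonneg hM hM0 u) (h61_logBM_self h0'.le h1'.le hM hM0) ha hb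
  | succ k ih =>
    intro K L hKc hK hKs hKr hKf hLc hL hLs hLr hLf
    refine h15_step (n := m + k) h0 h1 M
      (fun y => (WithLp.toLp 2 (fun j : Fin m =>
        y (Fin.cast (Nat.add_comm k m) (Fin.natAdd k j))) : EuclideanSpace ℝ (Fin m)))
      (fun y => (WithLp.toLp 2 (fun j : Fin m =>
        y (Fin.cast (Nat.add_comm (k + 1) m) (Fin.natAdd (k + 1) j))) :
          EuclideanSpace ℝ (Fin m)))
      ?_ k ih K L hKc hK hKs hKr hKf hLc hL hLs hLr hLf
    intro t y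
    ext j
    show (ecomb t y) (Fin.cast (Nat.add_comm (k + 1) m) (Fin.natAdd (k + 1) j))
      = y (Fin.cast (Nat.add_comm k m) (Fin.natAdd k j))
    have e : (Fin.cast (Nat.add_comm (k + 1) m) (Fin.natAdd (k + 1) j) : Fin (m + k + 1))
        = (Fin.cast (Nat.add_comm k m) (Fin.natAdd k j)).succ := by
      ext
      simp
      omega
    rw [e, ecomb_succ]

end Vale.Agent.Lib.P227
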